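import Mathlib.Tactic
import Mathlib.Data.Finset.Basic
import Mathlib.Data.Fintype.Sum

/-!
# P113: reversible programs with two stacks (interface)

A configuration consists of a control state and two stacks (`false`: left, `true`: right) of
symbols. The rules push a symbol or pop a symbol; distinct rules with the same source pop distinct
symbols of the same stack, and distinct rules with the same target push distinct symbols on the same
stack.
-/

namespace Vale.Agent.P113.H907

/-- operations on the two stacks -/
inductive Op (A : Type)
  | push (s : Bool) (a : A)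
  | pop (s : Bool) (a : A)
deriving DecidableEq

/-- a rule: source, target, operation -/
structure Rule (Q A : Type) where
  src : Q
  dst : Q
  op : Op A
deriving DecidableEq

/-- a configuration: control state and the two stacks, top first -/
structure Cfg (Q A : Type) where
  st : Q
  stk : Bool → List A

/-- the effect of an operation on the stacks -/
inductive Op.Acts {A : Type} : Op A → (Bool → List A) → (Bool → List A) → Prop
  | push (s : Bool) (a : A) (S : Bool → List A) :
      Op.Acts (Op.push s a) S (Function.update S s (a :: S s))
  | pop (s : Bool) (a : A) (S : Bool → List A) :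
      Op.Acts (Op.pop s a) (Function.update S s (a :: S s)) S

/-- the rule `r` leads from `c` to `d` -/
def Rule.Step {Q A : Type} (r : Rule Q A) (c d : Cfg Q A) : Prop :=
  c.st = r.src ∧ d.st = r.dst ∧ r.op.Acts c.stk d.stk

/-- both operations pop the same stack, distinct symbols -/
def Op.PopSep {A : Type} (o o' : Op A) : Prop :=
  ∃ s a a', a ≠ a' ∧ o = Op.pop s a ∧ o' = Op.pop s a'

/-- both operations push on the same stack, distinct symbols -/
def Op.PushSep {A : Type} (o o' : Op A) : Prop :=
  ∃ s a a', a ≠ a' ∧ o = Op.push s a ∧ o' = Op.push s a'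

/-- a reversible program with two stacks, `m` control states and `k` symbols -/
structure RevProg (m k : ℕ) where
  rules : Finset (Rule (Fin m) (Fin k))
  start : Fin m
  hlt : Fin m
  dom_sep : ∀ r ∈ rules, ∀ r' ∈ rules, r ≠ r' → r.src = r'.src → r.op.PopSep r'.op
  img_sep : ∀ r ∈ rules, ∀ r' ∈ rules, r ≠ r' → r.dst = r'.dst → r.op.PushSep r'.op
  hlt_src : ∀ r ∈ rules, r.src ≠ hlt

/-- one step of a program -/
def RevProg.Step {m k : ℕ} (P : RevProg m k) (c d : Cfg (Fin m) (Fin k)) : Prop :=
  ∃ r ∈ P.rules, r.Step c d

/-- the configuration with control state `q`, empty left stack and right stack `l` -/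
def Cfg.start {Q A : Type} (q : Q) (l : List A) : Cfg Q A := ⟨q, fun s => cond s l []⟩

/-- some finite run from the word `l` ends in the halting state -/
def RevProg.Halts {m k : ℕ} (P : RevProg m k) (l : List (Fin k)) : Prop :=
  ∃ (N : ℕ) (c : ℕ → Cfg (Fin m) (Fin k)), c 0 = Cfg.start P.start l ∧
    (∀ n < N, P.Step (c n) (c (n + 1))) ∧ (c N).st = P.hlt

/-- some infinite run from the word `l` never meets the halting state -/
def RevProg.Runs {m k : ℕ} (P : RevProg m k) (l : List (Fin k)) : Prop :=
  ∃ c : ℕ → Cfg (Fin m) (Fin k), c 0 = Cfg.start P.start l ∧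
    (∀ n, P.Step (c n) (c (n + 1))) ∧ ∀ n, (c n).st ≠ P.hlt

end Vale.Agent.P113.H907
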