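import Vale.Agent.P113.H907.Univ
import Mathlib.Computability.Primrec.List

/-!
# P113: recursively enumerable predicates and reversible programs with two stacks
-/

namespace Vale.Agent.P113.H907

open Turing.PartrecToTM2 (Γ' K' trNat trList)
open Relation

/-! ### binary digits are primitive recursive -/

theorem trPosNum_eq (n : PosNum) : Turing.PartrecToTM2.trPosNum n =
    (Nat.bits (n : ℕ)).map fun b => cond b Γ'.bit1 Γ'.bit0 := by
  induction n with
  | one => simp [Turing.PartrecToTM2.trPosNum, Nat.one_bits]
  | bit1 n ih =>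
    rw [Turing.PartrecToTM2.trPosNum, ih, PosNum.cast_bit1]
    have : (n : ℕ) + n + 1 = 2 * (n : ℕ) + 1 := by ring
    rw [this, Nat.bit1_bits]
    rfl
  | bit0 n ih =>
    rw [Turing.PartrecToTM2.trPosNum, ih, PosNum.cast_bit0]
    have : (n : ℕ) + n = 2 * (n : ℕ) := by ring
    rw [this, Nat.bit0_bits _ (PosNum.to_nat_pos n).ne']
    rfl

theorem trNat_eq (n : ℕ) : trNat n = (Nat.bits n).map fun b => cond b Γ'.bit1 Γ'.bit0 := by
  have h : ((n : Num) : ℕ) = n := Num.to_of_nat n
  rw [trNat]
  rcases hn : (n : Num) with _ | p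
  · rw [hn] at h
    have : n = 0 := by rw [← h]; rfl
    subst this
    simp [Turing.PartrecToTM2.trNum]
  · rw [hn] at h
    rw [Turing.PartrecToTM2.trNum, trPosNum_eq]
    congr 2

theorem bits_eq (n : ℕ) (hn : n ≠ 0) : n.bits = (decide (n % 2 = 1)) :: (n / 2).bits := by
  rcases Nat.even_or_odd' n with ⟨m, rfl | rfl⟩
  · have h1 : 2 * m / 2 = m := by omega
    have h2 : decide (2 * m % 2 = 1) = false := by
      rw [decide_eq_false_iff_not]
      omega
    rw [Nat.bit0_bits _ (by omega), h1, h2]
  · have h1 : (2 * m + 1) / 2 = m := by omega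
    have h2 : decide ((2 * m + 1) % 2 = 1) = true := by
      rw [decide_eq_true_iff]
      omega
    rw [Nat.bit1_bits, h1, h2]

theorem primrec_bits : Primrec Nat.bits := by
  have hg : Primrec₂ fun (_ : Unit) (l : List (List Bool)) =>
      (if l.length = 0 then some [] else
        some ((decide (l.length % 2 = 1)) :: (l.getD (l.length / 2) [])) : Option (List Bool)) := by
    have hl : Primrec fun p : Unit × List (List Bool) => p.2.length :=
      Primrec.list_length.comp Primrec.snd
    refine Primrec.ite (Primrec.eq.comp hl (Primrec.const 0)) (Primrec.const _) ?_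
    refine Primrec.option_some.comp (Primrec.list_cons.comp ?_ ?_)
    · have h1 : PrimrecPred fun p : Unit × List (List Bool) => p.2.length % 2 = 1 :=
        Primrec.eq.comp (Primrec.nat_mod.comp hl (Primrec.const 2)) (Primrec.const 1)
      exact h1.decide
    · exact (Primrec.list_getD []).comp Primrec.snd (Primrec.nat_div.comp hl (Primrec.const 2))
  have h := Primrec.nat_strong_rec (fun (_ : Unit) n => Nat.bits n) hg (by
    intro _ n
    simp only [List.length_map, List.length_range]
    by_cases hn : n = 0
    · subst hn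
      simp
    · rw [if_neg hn, bits_eq n hn]
      congr 2
      rw [List.getD_eq_getElem _ _ (by simp; omega)]
      simp)
  exact h.comp (Primrec.const ()) Primrec.id

theorem primrec_trNat_map {β : Type*} [Primcodable β] (φ : Γ' → β) :
    Primrec fun n : ℕ => (trNat n).map φ := by
  have h : (fun n : ℕ => (trNat n).map φ) =
      fun n : ℕ => (Nat.bits n).map fun b => cond b (φ Γ'.bit1) (φ Γ'.bit0) := by
    funext n
    rw [trNat_eq, List.map_map]
    congr 1
    funext b
    cases b <;> rfl
  rw [h]
  refine Primrec.list_map primrec_bits ?_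
  exact Primrec.cond Primrec.snd (Primrec.const _) (Primrec.const _)

/-! ### the main theorem -/

theorem stOf_word {S : Type} (v : List ℕ) : (word (stOf v) : List (Sym S)) =
    .mk .main :: ((trList v).map .g ++ [.mk .rev, .mk .aux, .mk .stack]) := by
  simp [word, seg, stOf]

/-- For every recursively enumerable predicate `H` there are a reversible program with two stacks
and a primitive recursive encoding of the instances, such that the program started on the code of
`a` reaches its halting state if `H a`, and runs for ever otherwise. -/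
theorem exists_prog {α : Type*} [Primcodable α] {H : α → Prop} (hH : REPred H) :
    ∃ (m k : ℕ) (P : RevProg m k) (f : α → List (Fin k)), Primrec f ∧
      (∀ a, H a → P.Halts (f a)) ∧ ∀ a, ¬ H a → P.Runs (f a) := by
  obtain ⟨c, hc⟩ := Nat.Partrec.Code.exists_code.1 hH
  have hdom : ∀ a : α, (c.eval (Encodable.encode a)).Dom ↔ H a := by
    intro a
    rw [hc]
    simp [Part.assert]
  obtain ⟨S, hS, E, hE1, hE2⟩ := exists_EM
  obtain ⟨m, ⟨u⟩⟩ := Finite.exists_equiv_fin (St S)
  obtain ⟨k, ⟨e⟩⟩ := Finite.exists_equiv_fin (Sym S)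
  set E0 : ℕ := Encodable.encode c with hE0
  have hE0' : Denumerable.ofNat Nat.Partrec.Code E0 = c := Denumerable.ofNat_encode c
  let f : α → List (Fin k) := fun a =>
    ((word (stOf [E0, Encodable.encode a]) ++ [.en] : List (Sym S))).map e
  have hcf : ∀ a, (cf (.G E.init) [] (word (stOf [E0, Encodable.encode a]) ++ .en :: []) :
      Cfg (St S) (Sym S)).map u e = Cfg.start (prog E.mach u e E.init).start (f a) := by
    intro a
    rw [cf_map]
    rfl
  refine ⟨m, k, prog E.mach u e E.init, f, ?_, ?_, ?_⟩
  · have h1 : f = fun a => e (.mk .main) :: (((trNat E0).map (fun γ => e (.g γ)) ++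
        e (.g .cons) :: ((trNat (Encodable.encode a)).map (fun γ => e (.g γ)) ++
        [e (.g .cons), e (.mk .rev), e (.mk .aux), e (.mk .stack), e .en]))) := by
      funext a
      simp only [f, stOf_word, trList]
      simp [Function.comp_def]
    rw [h1]
    refine Primrec.list_cons.comp (Primrec.const _) ?_
    refine Primrec.list_append.comp (Primrec.const _) ?_
    refine Primrec.list_cons.comp (Primrec.const _) ?_
    refine Primrec.list_append.comp ?_ (Primrec.const _)
    exact (primrec_trNat_map fun γ => e (.g γ)).comp Primrec.encode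
  · intro a ha
    obtain ⟨r, hr⟩ := Part.dom_iff_mem.1 ((hdom a).2 ha)
    rw [← hE0'] at hr
    obtain ⟨t, s, h1, h2⟩ := hE1 E0 (Encodable.encode a) r hr
    obtain ⟨d, hd, h3⟩ := E.prog_halts t _ _ [] _ _ h1 h2
    obtain ⟨N, c', h4, h5, h6⟩ := exists_run _ h3
    refine ⟨N, fun n => (c' n).map u e, ?_, fun n hn => prog_step _ u e _ (h5 n hn), ?_⟩
    · change (c' 0).map u e = _
      rw [h4, hcf]
    · change u (c' N).st = u .H
      rw [h6, hd]
  · intro a ha
    have h1 : ∀ t s' T', E.iter t (E.init, stOf [E0, Encodable.encode a]) = some (s', T') →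
        E.δ s' ≠ none := by
      intro t s' T' h2 h3
      obtain ⟨r, hr, -⟩ := hE2 E0 (Encodable.encode a) t s' T' h2 h3
      rw [hE0'] at hr
      exact ha ((hdom a).1 (Part.dom_iff_mem.2 ⟨r, hr⟩))
    obtain ⟨c', h4, h5⟩ := E.prog_runs _ _ h1 []
    have h6 : ∀ n, (prog E.mach u e E.init).Step ((c' n).map u e) ((c' (n + 1)).map u e) :=
      fun n => prog_step _ u e _ (h5 n)
    refine ⟨fun n => (c' n).map u e, ?_, h6, ?_⟩
    · change (c' 0).map u e = _
      rw [h4, hcf]
    · intro n hn
      obtain ⟨r, hr, h7, -⟩ := h6 n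
      exact (prog E.mach u e E.init).hlt_src r hr (h7 ▸ hn)

end Vale.Agent.P113.H907
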