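import Mathlib.Computability.TuringMachine.ToPartrec
import Mathlib.Computability.RE
import Mathlib.Tactic

/-!
Elementary machines with four stacks (Mathlib's `PartrecToTM2`).
-/

namespace Vale.Agent.P113.H907

open Turing.PartrecToTM2 (Γ' K' trNat trList)

/-- contents of the four stacks, top first -/
abbrev Stacks := K' → List Γ'

/-- elementary machine with four stacks. `δ s = none`: halt. `δ s = some (k, nx)`: pop the top
letter `o` of the stack `k` (`none` if empty), go to the state `(nx o).1` and push the list
`(nx o).2` (top first) on the stack `k`. -/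
structure EM (S : Type) where
  init : S
  δ : S → Option (K' × (Option Γ' → S × List Γ'))
  len : ∀ s k nx, δ s = some (k, nx) → ∀ o, (nx o).2.length ≤ o.toList.length + 1

variable {S : Type}

/-- one step -/
def EM.step (E : EM S) (c : S × Stacks) : Option (S × Stacks) :=
  (E.δ c.1).map fun d => ((d.2 (c.2 d.1).head?).1,
    Function.update c.2 d.1 ((d.2 (c.2 d.1).head?).2 ++ (c.2 d.1).tail))

/-- `t` steps (`none` if the machine halts before) -/
def EM.iter (E : EM S) : ℕ → S × Stacks → Option (S × Stacks)
  | 0, c => some c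
  | t + 1, c => (E.step c).bind (E.iter t)

/-- stacks holding the list `v` on the main stack -/
def stOf (v : List ℕ) : Stacks := K'.elim (trList v) [] [] []

/-! ### reachability -/

theorem EM.iter_of_reaches (E : EM S) {c d : S × Stacks}
    (h : StateTransition.Reaches E.step c d) : ∃ t, E.iter t c = some d := by
  refine Relation.ReflTransGen.head_induction_on h ⟨0, rfl⟩ ?_
  rintro a b hab _ ⟨t, ht⟩
  refine ⟨t + 1, ?_⟩
  have hab' : E.step a = some b := hab
  simp [EM.iter, hab', ht]

theorem EM.reaches_of_iter (E : EM S) : ∀ {t : ℕ} {c d : S × Stacks},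
    E.iter t c = some d → StateTransition.Reaches E.step c d
  | 0, c, d, h => by
    have : c = d := by simpa [EM.iter] using h
    subst this
    exact Relation.ReflTransGen.refl
  | t + 1, c, d, h => by
    simp only [EM.iter, Option.bind_eq_some_iff] at h
    obtain ⟨b, hb, hbd⟩ := h
    exact Relation.ReflTransGen.head hb (E.reaches_of_iter hbd)

theorem EM.step_eq_none (E : EM S) (c : S × Stacks) : E.step c = none ↔ E.δ c.1 = none := by
  simp [EM.step]

/-! ### restriction to a finite closed set of states -/

open Classical in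
/-- restriction of a machine to a set of states -/
noncomputable def EM.restr (E : EM S) (F : Set S) (h0 : E.init ∈ F) : EM F where
  init := ⟨E.init, h0⟩
  δ s := (E.δ s.1).map fun d => (d.1, fun o =>
    (if h : (d.2 o).1 ∈ F then ⟨(d.2 o).1, h⟩ else s, (d.2 o).2))
  len := by
    intro s k nx h o
    simp only [Option.map_eq_some_iff] at h
    obtain ⟨d, hd, he⟩ := h
    have h1 : d.1 = k := congrArg Prod.fst he
    have h2 := congrFun (congrArg Prod.snd he) o
    have h3 : (d.2 o).2 = (nx o).2 := congrArg Prod.snd h2
    rw [← h3]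
    exact E.len s.1 d.1 d.2 hd o

theorem EM.restr_step (E : EM S) (F : Set S) (h0 : E.init ∈ F)
    (hF : ∀ s ∈ F, ∀ d, E.δ s = some d → ∀ o, (d.2 o).1 ∈ F) (s : F) (T : Stacks) :
    E.step (s.1, T) = ((E.restr F h0).step (s, T)).map fun c => (c.1.1, c.2) := by
  rcases h : E.δ s.1 with _ | d
  · simp only [step, h, Option.map_none, restr]
  · have := hF s.1 s.2 d h ((T d.1).head?)
    simp only [step, h, Option.map_some, restr, this, ↓reduceDIte]

theorem EM.restr_iter (E : EM S) (F : Set S) (h0 : E.init ∈ F)
    (hF : ∀ s ∈ F, ∀ d, E.δ s = some d → ∀ o, (d.2 o).1 ∈ F) : ∀ (t : ℕ) (s : F) (T : Stacks),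
    E.iter t (s.1, T) = ((E.restr F h0).iter t (s, T)).map fun c => (c.1.1, c.2)
  | 0, s, T => by simp only [iter, Option.map_some]
  | t + 1, s, T => by
    rw [EM.iter, EM.iter, E.restr_step F h0 hF]
    rcases h : (E.restr F h0).step (s, T) with _ | ⟨s', T'⟩
    · simp
    · simp [E.restr_iter F h0 hF t s' T']

theorem EM.restr_δ (E : EM S) (F : Set S) (h0 : E.init ∈ F) (s : F) :
    (E.restr F h0).δ s = none ↔ E.δ s.1 = none := by
  simp only [restr, Option.map_eq_none_iff]

/-! ### the machine executing the statements of `PartrecToTM2` one by one -/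

/-- statements -/
abbrev St2 := Turing.TM2.Stmt (fun _ : K' => Γ') Turing.PartrecToTM2.Λ' (Option Γ')

/-- configurations -/
abbrev Cf2 := Turing.TM2.Cfg (fun _ : K' => Γ') Turing.PartrecToTM2.Λ' (Option Γ')

/-- transition function: one elementary statement at a time -/
def emδ : Option St2 × Option Γ' →
    Option (K' × (Option Γ' → (Option St2 × Option Γ') × List Γ'))
  | (none, _) => none
  | (some (.push k f q), v) => some (k, fun o => ((some q, v), f v :: o.toList))
  | (some (.peek k f q), v) => some (k, fun o => ((some q, f v o), o.toList))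
  | (some (.pop k f q), v) => some (k, fun o => ((some q, f v o), []))
  | (some (.load a q), v) => some (.main, fun o => ((some q, a v), o.toList))
  | (some (.branch f q₁ q₂), v) =>
      some (.main, fun o => ((some (cond (f v) q₁ q₂), v), o.toList))
  | (some (.goto f), v) =>
      some (.main, fun o => ((some (Turing.PartrecToTM2.tr (f v)), v), o.toList))
  | (some .halt, v) => some (.main, fun o => ((none, v), o.toList))

/-- the machine executing the code `c` -/
def emOf (c : Turing.ToPartrec.Code) : EM (Option St2 × Option Γ') where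
  init := (some (Turing.PartrecToTM2.tr
    (Turing.PartrecToTM2.trNormal c Turing.PartrecToTM2.Cont'.halt)), none)
  δ := emδ
  len := by
    rintro ⟨s, v⟩ k nx h o
    rcases s with _ | s
    · simp [emδ] at h
    · cases s <;> simp only [emδ, Option.some.injEq, Prod.mk.injEq] at h <;>
        obtain ⟨-, rfl⟩ := h <;> cases o <;> simp

/-- configurations of `TM2` as configurations of the machine -/
def cfOf (c : Cf2) : (Option St2 × Option Γ') × Stacks :=
  ((c.l.map Turing.PartrecToTM2.tr, c.var), c.stk)

theorem head?_toList_append_tail {α : Type*} (l : List α) : l.head?.toList ++ l.tail = l := by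
  cases l <;> simp

theorem emOf_reaches (c : Turing.ToPartrec.Code) (q : St2) : ∀ (v : Option Γ') (T : Stacks),
    StateTransition.Reaches₁ (emOf c).step ((some q, v), T) (cfOf (Turing.TM2.stepAux q v T)) := by
  induction q with
  | push k f q ih =>
    intro v T
    refine Relation.TransGen.head ?_ (ih v (Function.update T k (f v :: T k)))
    simp only [EM.step, emOf, emδ, Option.map_some, List.cons_append, head?_toList_append_tail, Option.mem_def]
  | peek k f q ih =>
    intro v T
    refine Relation.TransGen.head ?_ (ih (f v (T k).head?) T)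
    simp [EM.step, emOf, emδ, head?_toList_append_tail]
  | pop k f q ih =>
    intro v T
    refine Relation.TransGen.head ?_ (ih (f v (T k).head?) (Function.update T k (T k).tail))
    simp [EM.step, emOf, emδ]
  | load a q ih =>
    intro v T
    refine Relation.TransGen.head ?_ (ih (a v) T)
    simp [EM.step, emOf, emδ, head?_toList_append_tail]
  | branch f q₁ q₂ ih₁ ih₂ =>
    intro v T
    rcases h : f v with _ | _
    · have h2 := ih₂ v T
      rw [Turing.TM2.stepAux, h]
      refine Relation.TransGen.head ?_ h2
      simp [EM.step, emOf, emδ, h, head?_toList_append_tail]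
    · have h2 := ih₁ v T
      rw [Turing.TM2.stepAux, h]
      refine Relation.TransGen.head ?_ h2
      simp [EM.step, emOf, emδ, h, head?_toList_append_tail]
  | goto f =>
    intro v T
    refine Relation.TransGen.single ?_
    simp [EM.step, emOf, emδ, cfOf, head?_toList_append_tail]
    rfl
  | halt =>
    intro v T
    refine Relation.TransGen.single ?_
    simp [EM.step, emOf, emδ, cfOf, head?_toList_append_tail]
    rfl

theorem emOf_respects (c : Turing.ToPartrec.Code) :
    StateTransition.Respects (Turing.TM2.step Turing.PartrecToTM2.tr) (emOf c).step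
      (fun a b => cfOf a = b) := by
  rw [StateTransition.fun_respects]
  rintro ⟨l, v, T⟩
  rcases l with _ | l
  · simp only [Turing.TM2.step, StateTransition.FRespects]
    rfl
  · simp only [Turing.TM2.step, StateTransition.FRespects]
    exact emOf_reaches c _ v T

theorem emOf_eval (c : Turing.ToPartrec.Code) (v : List ℕ) :
    StateTransition.eval (emOf c).step ((emOf c).init, stOf v) =
      cfOf <$> (Turing.PartrecToTM2.halt <$> c.eval v) := by
  have h := StateTransition.tr_eval' _ _ _ (emOf_respects c) (Turing.PartrecToTM2.init c v)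
  rw [Turing.PartrecToTM2.tr_eval] at h
  exact h

/-! ### the finite set of states -/

/-- the states reached by the machine -/
def emF (c : Turing.ToPartrec.Code) : Set (Option St2 × Option Γ') :=
  {s | s.1 ∈ Turing.TM2.stmts Turing.PartrecToTM2.tr
    (Turing.PartrecToTM2.codeSupp c Turing.PartrecToTM2.Cont'.halt)}

theorem emF_finite (c : Turing.ToPartrec.Code) : (emF c).Finite := by
  have h : (emF c) = ((Turing.TM2.stmts Turing.PartrecToTM2.tr
    (Turing.PartrecToTM2.codeSupp c Turing.PartrecToTM2.Cont'.halt) : Finset _) :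
      Set (Option St2)) ×ˢ (Set.univ : Set (Option Γ')) := by
    ext s
    simp [emF]
  rw [h]
  exact (Finset.finite_toSet _).prod Set.finite_univ

theorem mem_stmts_of_mem {M : Turing.PartrecToTM2.Λ' → St2}
    {S : Finset Turing.PartrecToTM2.Λ'} {l : Turing.PartrecToTM2.Λ'} (hl : l ∈ S) :
    some (M l) ∈ Turing.TM2.stmts M S := by
  simp only [Turing.TM2.stmts, Finset.some_mem_insertNone, Finset.mem_biUnion]
  exact ⟨l, hl, Turing.TM2.stmts₁_self⟩

theorem emF_init (c : Turing.ToPartrec.Code) : (emOf c).init ∈ emF c :=
  mem_stmts_of_mem (Turing.PartrecToTM2.tr_supports c Turing.PartrecToTM2.Cont'.halt).1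

theorem emF_closed (c : Turing.ToPartrec.Code) : ∀ s ∈ emF c, ∀ d, (emOf c).δ s = some d →
    ∀ o, (d.2 o).1 ∈ emF c := by
  rintro ⟨q, v⟩ hs d hd o
  rcases q with _ | q
  · simp [emOf, emδ] at hd
  · have hsup := fun h => @Turing.TM2.stmts_supportsStmt _ _ _ _
      ⟨Turing.PartrecToTM2.trNormal c Turing.PartrecToTM2.Cont'.halt⟩
      Turing.PartrecToTM2.tr _ q
      (Turing.PartrecToTM2.tr_supports c Turing.PartrecToTM2.Cont'.halt) h
    have hs' : some q ∈ Turing.TM2.stmts Turing.PartrecToTM2.tr
      (Turing.PartrecToTM2.codeSupp c Turing.PartrecToTM2.Cont'.halt) := hs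
    specialize hsup hs'
    simp only [emOf] at hd
    change (d.2 o).1.1 ∈ Turing.TM2.stmts Turing.PartrecToTM2.tr
      (Turing.PartrecToTM2.codeSupp c Turing.PartrecToTM2.Cont'.halt)
    cases q with
    | push k f q =>
      simp only [emδ, Option.some.injEq] at hd
      subst hd
      exact Turing.TM2.stmts_trans (by simp [Turing.TM2.stmts₁, Turing.TM2.stmts₁_self]) hs'
    | peek k f q =>
      simp only [emδ, Option.some.injEq] at hd
      subst hd
      exact Turing.TM2.stmts_trans (by simp [Turing.TM2.stmts₁, Turing.TM2.stmts₁_self]) hs'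
    | pop k f q =>
      simp only [emδ, Option.some.injEq] at hd
      subst hd
      exact Turing.TM2.stmts_trans (by simp [Turing.TM2.stmts₁, Turing.TM2.stmts₁_self]) hs'
    | load a q =>
      simp only [emδ, Option.some.injEq] at hd
      subst hd
      exact Turing.TM2.stmts_trans (by simp [Turing.TM2.stmts₁, Turing.TM2.stmts₁_self]) hs'
    | branch f q₁ q₂ =>
      simp only [emδ, Option.some.injEq] at hd
      subst hd
      refine Turing.TM2.stmts_trans ?_ hs'
      rcases h : f v with _ | _
      · simp [Turing.TM2.stmts₁, Turing.TM2.stmts₁_self]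
      · simp [Turing.TM2.stmts₁, Turing.TM2.stmts₁_self]
    | goto f =>
      simp only [emδ, Option.some.injEq] at hd
      subst hd
      exact mem_stmts_of_mem (hsup v)
    | halt =>
      simp only [emδ, Option.some.injEq] at hd
      subst hd
      simp [Turing.TM2.stmts]

/-- a universal code -/
theorem exists_univ : ∃ U : Turing.ToPartrec.Code, ∀ e m : ℕ,
    U.eval [e, m] = pure <$> (Denumerable.ofNat Nat.Partrec.Code e).eval m := by
  have h1 : Partrec₂ fun e m : ℕ => (Denumerable.ofNat Nat.Partrec.Code e).eval m :=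
    Nat.Partrec.Code.eval_part.comp ((Computable.ofNat _).comp Computable.fst) Computable.snd
  obtain ⟨U, hU⟩ := Turing.ToPartrec.Code.exists_code (Nat.Partrec'.part_iff₂.2 h1)
  exact ⟨U, fun e m => hU (e ::ᵥ m ::ᵥ List.Vector.nil)⟩

/-- C1: a universal elementary machine. -/
theorem exists_EM : ∃ (S : Type) (_ : Finite S) (E : EM S),
    (∀ e m r, r ∈ (Denumerable.ofNat Nat.Partrec.Code e).eval m →
      ∃ t s, E.iter t (E.init, stOf [e, m]) = some (s, stOf [r]) ∧ E.δ s = none) ∧
    (∀ e m t s T, E.iter t (E.init, stOf [e, m]) = some (s, T) → E.δ s = none →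
      ∃ r ∈ (Denumerable.ofNat Nat.Partrec.Code e).eval m, T = stOf [r]) := by
  obtain ⟨U, hU⟩ := exists_univ
  have h0 := emF_init U
  refine ⟨emF U, (emF_finite U).to_subtype, (emOf U).restr (emF U) h0, ?_, ?_⟩
  · intro e m r hr
    have h1 : cfOf (Turing.PartrecToTM2.halt [r]) ∈
        StateTransition.eval (emOf U).step ((emOf U).init, stOf [e, m]) := by
      rw [emOf_eval, hU]
      exact (Part.mem_map_iff _).2 ⟨_, (Part.mem_map_iff _).2
        ⟨_, (Part.mem_map_iff _).2 ⟨r, hr, rfl⟩, rfl⟩, rfl⟩
    obtain ⟨h2, h3⟩ := StateTransition.mem_eval.1 h1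
    obtain ⟨t, ht⟩ := (emOf U).iter_of_reaches h2
    rw [show ((emOf U).init, stOf [e, m]) =
      ((((emOf U).restr (emF U) h0).init).1, stOf [e, m]) from rfl,
      (emOf U).restr_iter (emF U) h0 (emF_closed U), Option.map_eq_some_iff] at ht
    obtain ⟨⟨s, T⟩, hs, hsT⟩ := ht
    have hT : T = stOf [r] := congrArg Prod.snd hsT
    have hs1 : s.1 = (cfOf (Turing.PartrecToTM2.halt [r])).1 := congrArg Prod.fst hsT
    subst hT
    refine ⟨t, s, hs, ?_⟩
    rw [EM.restr_δ, hs1]
    exact ((emOf U).step_eq_none _).1 h3
  · intro e m t s T ht hs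
    have h1 : (emOf U).iter t ((emOf U).init, stOf [e, m]) = some (s.1, T) := by
      rw [show ((emOf U).init, stOf [e, m]) =
        ((((emOf U).restr (emF U) h0).init).1, stOf [e, m]) from rfl,
        (emOf U).restr_iter (emF U) h0 (emF_closed U), ht]
      rfl
    have h2 : (s.1, T) ∈ StateTransition.eval (emOf U).step ((emOf U).init, stOf [e, m]) := by
      rw [StateTransition.mem_eval]
      refine ⟨(emOf U).reaches_of_iter h1, ?_⟩
      rw [EM.step_eq_none]
      exact ((emOf U).restr_δ (emF U) h0 s).1 hs
    rw [emOf_eval, hU] at h2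
    obtain ⟨_, h4, h3⟩ := (Part.mem_map_iff _).1 h2
    obtain ⟨_, h5, rfl⟩ := (Part.mem_map_iff _).1 h4
    obtain ⟨r, hr, rfl⟩ := (Part.mem_map_iff _).1 h5
    exact ⟨r, hr, (congrArg Prod.snd h3).symm⟩

end Vale.Agent.P113.H907
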