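import Vale.Agent.P113.H907.Sim

/-!
# P113: the simulation of one step of the machine
-/

namespace Vale.Agent.P113.H907

open Turing.PartrecToTM2 (Γ' K' trNat trList)
open Relation

variable {S : Type}

/-- configuration with given stacks -/
def cf {Q A : Type} (p : Q) (L R : List A) : Cfg Q A := ⟨p, fun s => cond s R L⟩

/-- one step -/
def Stp (M : Mach S) (c d : Cfg (St S) (Sym S)) : Prop :=
  ∃ o, Rl M c.st o d.st ∧ o.Acts c.stk d.stk

theorem upd_false {A : Type} (L R L' : List A) :
    Function.update (fun s : Bool => cond s R L) false L' = fun s => cond s R L' := by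
  funext s
  cases s <;> simp [Function.update]

theorem upd_true {A : Type} (L R R' : List A) :
    Function.update (fun s : Bool => cond s R L) true R' = fun s => cond s R' L := by
  funext s
  cases s <;> simp [Function.update]

theorem Stp.pushL {M : Mach S} {p q : St S} {a : Sym S} (h : Rl M p (.push false a) q)
    (L R : List (Sym S)) : Stp M (cf p L R) (cf q (a :: L) R) := by
  refine ⟨_, h, ?_⟩
  have := Op.Acts.push false a (fun s : Bool => cond s R L)
  rw [upd_false] at this
  exact this

theorem Stp.pushR {M : Mach S} {p q : St S} {a : Sym S} (h : Rl M p (.push true a) q)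
    (L R : List (Sym S)) : Stp M (cf p L R) (cf q L (a :: R)) := by
  refine ⟨_, h, ?_⟩
  have := Op.Acts.push true a (fun s : Bool => cond s R L)
  rw [upd_true] at this
  exact this

theorem Stp.popL {M : Mach S} {p q : St S} {a : Sym S} (h : Rl M p (.pop false a) q)
    (L R : List (Sym S)) : Stp M (cf p (a :: L) R) (cf q L R) := by
  refine ⟨_, h, ?_⟩
  have := Op.Acts.pop false a (fun s : Bool => cond s R L)
  rw [upd_false] at this
  exact this

theorem Stp.popR {M : Mach S} {p q : St S} {a : Sym S} (h : Rl M p (.pop true a) q)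
    (L R : List (Sym S)) : Stp M (cf p L (a :: R)) (cf q L R) := by
  refine ⟨_, h, ?_⟩
  have := Op.Acts.pop true a (fun s : Bool => cond s R L)
  rw [upd_true] at this
  exact this

/-- moving symbols to the left stack in the first walk -/
theorem walk1 (M : Mach S) (s : S) (u : List (Sym S))
    (hu : ∀ c ∈ u, IsTape c ∧ c ≠ .mk (M.kk s)) : ∀ L R,
    ReflTransGen (Stp M) (cf (.W1 s) L (u ++ R)) (cf (.W1 s) (u.reverse ++ L) R) := by
  induction u with
  | nil => intro L R; exact .refl
  | cons c u ih =>
    intro L R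
    obtain ⟨h1, h2⟩ := hu c (by simp)
    have h3 := ih (fun c' hc' => hu c' (by simp [hc'])) (c :: L) R
    refine ReflTransGen.head (Stp.popR (Rl.w1 s c h1) L (u ++ R)) ?_
    refine ReflTransGen.head (Stp.pushL (Rl.m1 s c h1 h2) L (u ++ R)) ?_
    simpa using h3

/-- moving symbols to the left stack in the second walk -/
theorem walk2 (M : Mach S) (s : S) (o : Option Γ') (u : List (Sym S))
    (hu : ∀ c ∈ u, IsTape c ∧ c ≠ .mk (M.kk s)) : ∀ L R,
    ReflTransGen (Stp M) (cf (.W2 s o) L (u ++ R)) (cf (.W2 s o) (u.reverse ++ L) R) := by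
  induction u with
  | nil => intro L R; exact .refl
  | cons c u ih =>
    intro L R
    obtain ⟨h1, h2⟩ := hu c (by simp)
    have h3 := ih (fun c' hc' => hu c' (by simp [hc'])) (c :: L) R
    refine ReflTransGen.head (Stp.popR (Rl.w2 s o c h1 h2) L (u ++ R)) ?_
    refine ReflTransGen.head (Stp.pushL (Rl.m2 s o c h1 h2) L (u ++ R)) ?_
    simpa using h3

/-- moving symbols back to the right stack -/
theorem back (M : Mach S) (s : S) (u : List (Sym S)) (hu : ∀ c ∈ u, IsTape c) : ∀ L R,
    ReflTransGen (Stp M) (cf (.B s) (u ++ L) R) (cf (.B s) L (u.reverse ++ R)) := by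
  induction u with
  | nil => intro L R; exact .refl
  | cons c u ih =>
    intro L R
    have h1 := hu c (by simp)
    have h3 := ih (fun c' hc' => hu c' (by simp [hc'])) L (c :: R)
    refine ReflTransGen.head (Stp.popL (Rl.b s c h1) (u ++ L) R) ?_
    refine ReflTransGen.head (Stp.pushR (Rl.m3 s c h1) (u ++ L) R) ?_
    simpa using h3

/-- pushing the word -/
theorem pushes (M : Mach S) (s : S) (o : Option Γ') (L R : List (Sym S)) : ∀ (n : ℕ) (j : Fin 3),
    (j : ℕ) = n → n ≤ (M.nn s o).2.length →
    ReflTransGen (Stp M) (cf (.D s o j) L (((M.nn s o).2.drop n).map .g ++ R))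
      (cf (.D s o 0) L ((M.nn s o).2.map .g ++ R)) := by
  intro n
  induction n with
  | zero =>
    intro j hj _
    have : j = 0 := Fin.ext hj
    subst this
    exact .refl
  | succ n ih =>
    intro j hj hn
    have hj' : n < 3 := by omega
    have h1 := ih ⟨n, hj'⟩ rfl (by omega)
    have hlt : n < (M.nn s o).2.length := by omega
    have h2 : Rl M (.D s o j) (.push true (.g ((M.nn s o).2[n]))) (.D s o ⟨n, hj'⟩) :=
      Rl.d s o j ⟨n, hj'⟩ _ hj (by simp [hlt])
    refine ReflTransGen.head (Stp.pushR h2 L _) ?_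
    have h3 : (Sym.g ((M.nn s o).2[n]) :: (((M.nn s o).2.drop (n + 1)).map .g ++ R) :
        List (Sym S)) = ((M.nn s o).2.drop n).map .g ++ R := by
      rw [List.drop_eq_getElem_cons hlt, List.map_cons, List.cons_append]
    rw [h3]
    exact h1

/-- the segment of a stack -/
def seg (T : Stacks) (k : K') : List (Sym S) := .mk k :: (T k).map .g

/-- the word of the four stacks -/
def word (T : Stacks) : List (Sym S) := seg T .main ++ (seg T .rev ++ (seg T .aux ++ seg T .stack))

theorem isTape_map_g (l : List Γ') (k : K') :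
    ∀ c ∈ (l.map Sym.g : List (Sym S)), IsTape c ∧ c ≠ .mk k := by
  intro c hc
  obtain ⟨γ, _, rfl⟩ := List.mem_map.1 hc
  exact ⟨.g γ, by simp⟩

theorem isTape_seg (T : Stacks) {k k' : K'} (h : k' ≠ k) :
    ∀ c ∈ (seg T k' : List (Sym S)), IsTape c ∧ c ≠ .mk k := by
  intro c hc
  rcases List.mem_cons.1 hc with rfl | hc
  · exact ⟨.mk k', by simpa using h⟩
  · exact isTape_map_g _ _ _ hc

theorem isTape_append {k : K'} {u v : List (Sym S)} (hu : ∀ c ∈ u, IsTape c ∧ c ≠ .mk k)
    (hv : ∀ c ∈ v, IsTape c ∧ c ≠ .mk k) : ∀ c ∈ u ++ v, IsTape c ∧ c ≠ .mk k := by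
  intro c hc
  rcases List.mem_append.1 hc with hc | hc
  · exact hu c hc
  · exact hv c hc

/-- the word around one segment -/
theorem word_split (k : K') (T : Stacks) : ∃ pre post : List (Sym S),
    (∀ c ∈ pre, IsTape c ∧ c ≠ .mk k) ∧ (∀ c ∈ post, IsTape c ∧ c ≠ .mk k) ∧
    (∃ rest, post ++ [.en] = nxt k :: rest) ∧
    ∀ v, word (Function.update T k v) = pre ++ .mk k :: (v.map .g ++ post) := by
  cases k
  · refine ⟨[], seg T .rev ++ (seg T .aux ++ seg T .stack), by simp,
      isTape_append (isTape_seg T (by simp)) (isTape_append (isTape_seg T (by simp))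
        (isTape_seg T (by simp))), ⟨(T .rev).map .g ++ (seg T .aux ++ seg T .stack) ++ [.en],
          by simp [seg, nxt]⟩, fun v => by simp [word, seg]⟩
  · refine ⟨seg T .main, seg T .aux ++ seg T .stack, isTape_seg T (by simp),
      isTape_append (isTape_seg T (by simp)) (isTape_seg T (by simp)),
      ⟨(T .aux).map .g ++ seg T .stack ++ [.en],
          by simp [seg, nxt]⟩, fun v => by simp [word, seg]⟩
  · refine ⟨seg T .main ++ seg T .rev, seg T .stack,
      isTape_append (isTape_seg T (by simp)) (isTape_seg T (by simp)),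
      isTape_seg T (by simp), ⟨(T .stack).map .g ++ [.en],
          by simp [seg, nxt]⟩, fun v => by simp [word, seg]⟩
  · refine ⟨seg T .main ++ (seg T .rev ++ seg T .aux), [],
      isTape_append (isTape_seg T (by simp)) (isTape_append (isTape_seg T (by simp))
        (isTape_seg T (by simp))), by simp, ⟨[], by simp [nxt]⟩, fun v => by simp [word, seg]⟩

/-- one step of the machine -/
theorem macro_step (M : Mach S) (s : S) (hs : ¬ M.hal s) (T : Stacks) (h : List (Sym S)) :
    TransGen (Stp M) (cf (.G s) [] (word T ++ .en :: h))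
      (cf (.G (M.nn s (T (M.kk s)).head?).1) []
        (word (Function.update T (M.kk s)
          ((M.nn s (T (M.kk s)).head?).2 ++ (T (M.kk s)).tail)) ++
          .en :: .hi s (T (M.kk s)).head? :: h)) := by
  obtain ⟨pre, post, hpre, hpost, ⟨rest, hrest⟩, hw⟩ := word_split (S := S) (M.kk s) T
  have hT : word T = pre ++ .mk (M.kk s) :: ((T (M.kk s)).map .g ++ post) := by
    rw [← hw (T (M.kk s)), Function.update_eq_self]
  refine TransGen.head' (Stp.pushL (Rl.go s hs) [] _) ?_
  rw [hT, List.append_assoc]
  refine (walk1 M s pre hpre _ _).trans ?_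
  refine ReflTransGen.head (Stp.popR (Rl.w1 s _ (.mk (M.kk s))) _ _) ?_
  set L : List (Sym S) := pre.reverse ++ [.bot] with hL
  set o := (T (M.kk s)).head? with ho
  set v := (M.nn s o).2 ++ (T (M.kk s)).tail with hv
  have hlen := M.len s o
  have key : ReflTransGen (Stp M) (cf (.M1 s (.mk (M.kk s))) L
      ((T (M.kk s)).map .g ++ post ++ .en :: h)) (cf (.D s o 0) L
      (v.map .g ++ (post ++ .en :: h))) := by
    rcases hk : T (M.kk s) with _ | ⟨γ, tl⟩
    · have ho' : o = none := by rw [ho, hk]; rfl
      have hen : (post ++ .en :: h : List (Sym S)) = nxt (M.kk s) :: (rest ++ h) := by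
        have : (post ++ .en :: h : List (Sym S)) = (post ++ [.en]) ++ h := by simp
        rw [this, hrest]
        rfl
      have hj : (M.nn s none).2.length < 3 := by
        have := M.len s none
        omega
      have h1 : Rl M (.M1 s (.mk (M.kk s))) (.pop true (nxt (M.kk s))) (.X s) := Rl.a2 s _ rfl
      have h2 : Rl M (.X s) (.push true (nxt (M.kk s))) (.D s none ⟨_, hj⟩) := Rl.x s _ rfl
      have h3 := pushes M s none L (post ++ .en :: h) _ ⟨_, hj⟩ rfl le_rfl
      rw [ho'] at hv ⊢
      rw [hv, hk]
      simp only [List.map_nil, List.nil_append, List.tail_nil, List.append_nil]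
      rw [List.drop_length] at h3
      simp only [List.map_nil, List.nil_append] at h3
      rw [hen] at h3 ⊢
      refine ReflTransGen.head (Stp.popR h1 _ _) ?_
      exact ReflTransGen.head (Stp.pushR h2 _ _) h3
    · have ho' : o = some γ := by rw [ho, hk]; rfl
      have hj : (M.nn s (some γ)).2.length < 3 := by
        have := M.len s (some γ)
        omega
      have h1 : Rl M (.M1 s (.mk (M.kk s))) (.pop true (.g γ)) (.D s (some γ) ⟨_, hj⟩) :=
        Rl.a1 s _ γ _ rfl rfl
      have h3 := pushes M s (some γ) L (tl.map .g ++ (post ++ .en :: h)) _ ⟨_, hj⟩ rfl le_rfl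
      rw [ho'] at hv ⊢
      rw [hv, hk]
      rw [List.drop_length] at h3
      simp only [List.map_nil, List.nil_append, List.map_cons, List.tail_cons, List.map_append,
        List.append_assoc, List.cons_append] at h3 ⊢
      exact ReflTransGen.head (Stp.popR h1 _ _) h3
  refine key.trans ?_
  refine ReflTransGen.head (Stp.pushL (Rl.d0 s o) _ _) ?_
  rw [← List.append_assoc]
  refine (walk2 M s o (v.map Sym.g ++ post) (isTape_append (isTape_map_g _ _) hpost) _ _).trans ?_
  refine ReflTransGen.head (Stp.popR (Rl.w2e s o) _ _) ?_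
  refine ReflTransGen.head (Stp.pushR (Rl.q s o _ rfl) _ _) ?_
  refine ReflTransGen.head (Stp.pushR (Rl.f _) _ _) ?_
  have hback := back M (M.nn s o).1 ((v.map Sym.g ++ post).reverse ++ .mk (M.kk s) :: pre.reverse)
    (by
      intro c hc
      rcases List.mem_append.1 hc with hc | hc
      · rw [List.mem_reverse] at hc
        exact (isTape_append (isTape_map_g v (M.kk s)) hpost c hc).1
      · rcases List.mem_cons.1 hc with rfl | hc
        · exact .mk _
        · rw [List.mem_reverse] at hc
          exact (hpre c hc).1) [.bot] (.en :: .hi s o :: h)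
  have e1 : (v.map Sym.g ++ post).reverse ++ .mk (M.kk s) :: L =
      ((v.map Sym.g ++ post).reverse ++ .mk (M.kk s) :: pre.reverse) ++ [.bot] := by
    rw [hL]
    simp
  rw [e1]
  refine hback.trans ?_
  refine ReflTransGen.head (Stp.popL (Rl.b0 _) _ _) ?_
  have e2 : ((v.map Sym.g ++ post).reverse ++ .mk (M.kk s) :: pre.reverse).reverse =
      word (Function.update T (M.kk s) v) := by
    rw [hw v]
    simp
  rw [e2]

end Vale.Agent.P113.H907
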