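import Vale.Agent.P113.H907.EM
import Vale.Agent.P113.H907.Prog

/-!
# P113: a reversible program with two stacks executing an elementary machine with four stacks

Between two steps of the machine the left stack is empty and the right stack holds the four stacks,
each preceded by a marker, then an end marker and the history.
-/

namespace Vale.Agent.P113.H907

open Turing.PartrecToTM2 (Γ' K' trNat trList)

/-- symbols of the program -/
inductive Sym (S : Type)
  | g (γ : Γ')
  | mk (k : K')
  | en
  | bot
  | hi (s : S) (o : Option Γ')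
  | fin (s : S)

/-- control states of the program -/
inductive St (S : Type)
  | H
  | G (s : S)
  | W1 (s : S)
  | M1 (s : S) (c : Sym S)
  | X (s : S)
  | D (s : S) (o : Option Γ') (j : Fin 3)
  | W2 (s : S) (o : Option Γ')
  | M2 (s : S) (o : Option Γ') (c : Sym S)
  | Q (s : S) (o : Option Γ')
  | F (s : S)
  | B (s : S)
  | M3 (s : S) (c : Sym S)

/-- symbols which occur inside the segments -/
inductive IsTape {S : Type} : Sym S → Prop
  | g (γ : Γ') : IsTape (Sym.g γ)
  | mk (k : K') : IsTape (Sym.mk k)

/-- the symbol after the segment of the stack `k` -/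
def nxt {S : Type} : K' → Sym S
  | .main => .mk .rev
  | .rev => .mk .aux
  | .aux => .mk .stack
  | .stack => .en

/-- a machine with total data: halting states, the stack used, the action -/
structure Mach (S : Type) where
  hal : S → Prop
  kk : S → K'
  nn : S → Option Γ' → S × List Γ'
  len : ∀ s o, (nn s o).2.length ≤ 2

variable {S : Type}

/-- the rules -/
inductive Rl (M : Mach S) : St S → Op (Sym S) → St S → Prop
  | fin (s : S) : M.hal s → Rl M (.G s) (.push false (.fin s)) .H
  | go (s : S) : ¬ M.hal s → Rl M (.G s) (.push false .bot) (.W1 s)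
  | w1 (s : S) (c : Sym S) : IsTape c → Rl M (.W1 s) (.pop true c) (.M1 s c)
  | m1 (s : S) (c : Sym S) : IsTape c → c ≠ .mk (M.kk s) →
      Rl M (.M1 s c) (.push false c) (.W1 s)
  | a1 (s : S) (c : Sym S) (γ : Γ') (j : Fin 3) : c = .mk (M.kk s) →
      (j : ℕ) = (M.nn s (some γ)).2.length → Rl M (.M1 s c) (.pop true (.g γ)) (.D s (some γ) j)
  | a2 (s : S) (c : Sym S) : c = .mk (M.kk s) →
      Rl M (.M1 s c) (.pop true (nxt (M.kk s))) (.X s)
  | x (s : S) (j : Fin 3) : (j : ℕ) = (M.nn s none).2.length →
      Rl M (.X s) (.push true (nxt (M.kk s))) (.D s none j)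
  | d (s : S) (o : Option Γ') (i j : Fin 3) (γ : Γ') : (i : ℕ) = j + 1 →
      (M.nn s o).2[(j : ℕ)]? = some γ → Rl M (.D s o i) (.push true (.g γ)) (.D s o j)
  | d0 (s : S) (o : Option Γ') : Rl M (.D s o 0) (.push false (.mk (M.kk s))) (.W2 s o)
  | w2 (s : S) (o : Option Γ') (c : Sym S) : IsTape c → c ≠ .mk (M.kk s) →
      Rl M (.W2 s o) (.pop true c) (.M2 s o c)
  | m2 (s : S) (o : Option Γ') (c : Sym S) : IsTape c → c ≠ .mk (M.kk s) →
      Rl M (.M2 s o c) (.push false c) (.W2 s o)
  | w2e (s : S) (o : Option Γ') : Rl M (.W2 s o) (.pop true .en) (.Q s o)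
  | q (s : S) (o : Option Γ') (s' : S) : s' = (M.nn s o).1 →
      Rl M (.Q s o) (.push true (.hi s o)) (.F s')
  | f (s : S) : Rl M (.F s) (.push true .en) (.B s)
  | b (s : S) (c : Sym S) : IsTape c → Rl M (.B s) (.pop false c) (.M3 s c)
  | m3 (s : S) (c : Sym S) : IsTape c → Rl M (.M3 s c) (.push true c) (.B s)
  | b0 (s : S) : Rl M (.B s) (.pop false .bot) (.G s)

theorem nxt_ne_g (k : K') (γ : Γ') : (nxt k : Sym S) ≠ .g γ := by
  cases k <;> simp [nxt]

theorem Rl.src_ne {M : Mach S} {o : Op (Sym S)} {q : St S} : ¬ Rl M .H o q := by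
  intro h
  cases h

/-- rules with the same source pop distinct symbols of the same stack -/
theorem Rl.dom_sep {M : Mach S} {p q q' : St S} {o o' : Op (Sym S)} (h : Rl M p o q)
    (h' : Rl M p o' q') (hne : (o, q) ≠ (o', q')) : o.PopSep o' := by
  cases h with
  | fin s hs => cases h' with
    | fin => exact absurd rfl hne
    | go _ hs' => exact absurd hs hs'
  | go s hs => cases h' with
    | fin _ hs' => exact absurd hs' hs
    | go => exact absurd rfl hne
  | w1 s c hc => cases h' with
    | w1 _ c' hc' =>
      refine ⟨true, c, c', ?_, rfl, rfl⟩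
      rintro rfl
      exact hne rfl
  | m1 s c hc hk => cases h' with
    | m1 => exact absurd rfl hne
    | a1 _ _ _ _ h1 => exact absurd h1 hk
    | a2 _ _ h1 => exact absurd h1 hk
  | a1 s c γ j h1 h2 => cases h' with
    | m1 _ _ _ h3 => exact absurd h1 h3
    | a1 _ _ γ' j' _ h4 =>
      refine ⟨true, _, _, ?_, rfl, rfl⟩
      intro h5
      have h6 : γ = γ' := by injection h5
      subst h6
      have h7 : j = j' := Fin.ext (h2.trans h4.symm)
      subst h7
      exact hne rfl
    | a2 => exact ⟨true, _, _, fun h => (nxt_ne_g _ _ h.symm), rfl, rfl⟩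
  | a2 s c h1 => cases h' with
    | m1 _ _ _ h3 => exact absurd h1 h3
    | a1 => exact ⟨true, _, _, fun h => (nxt_ne_g _ _ h), rfl, rfl⟩
    | a2 => exact absurd rfl hne
  | x s j h1 => cases h' with
    | x _ j' h2 =>
      have h7 : j = j' := Fin.ext (h1.trans h2.symm)
      subst h7
      exact absurd rfl hne
  | d s o i j γ h1 h2 => cases h' with
    | d _ _ _ j' γ' h3 h4 =>
      have h7 : j = j' := Fin.ext (by omega)
      subst h7
      have h8 : γ = γ' := by
        rw [h2] at h4
        injection h4
      subst h8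
      exact absurd rfl hne
    | d0 => simp at h1
  | d0 s o => cases h' with
    | d _ _ _ j' γ' h3 h4 => simp at h3
    | d0 => exact absurd rfl hne
  | w2 s o c hc hk => cases h' with
    | w2 _ _ c' hc' =>
      refine ⟨true, c, c', ?_, rfl, rfl⟩
      rintro rfl
      exact hne rfl
    | w2e =>
      refine ⟨true, c, _, ?_, rfl, rfl⟩
      rintro rfl
      cases hc
  | m2 s o c hc hk => cases h' with
    | m2 => exact absurd rfl hne
  | w2e s o => cases h' with
    | w2 _ _ c hc =>
      refine ⟨true, _, c, ?_, rfl, rfl⟩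
      rintro rfl
      cases hc
    | w2e => exact absurd rfl hne
  | q s o s' h1 => cases h' with
    | q _ _ s'' h2 =>
      subst h1 h2
      exact absurd rfl hne
  | f s => cases h' with
    | f => exact absurd rfl hne
  | b s c hc => cases h' with
    | b _ c' hc' =>
      refine ⟨false, c, c', ?_, rfl, rfl⟩
      rintro rfl
      exact hne rfl
    | b0 =>
      refine ⟨false, c, _, ?_, rfl, rfl⟩
      rintro rfl
      cases hc
  | m3 s c hc => cases h' with
    | m3 => exact absurd rfl hne
  | b0 s => cases h' with
    | b _ c hc =>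
      refine ⟨false, _, c, ?_, rfl, rfl⟩
      rintro rfl
      cases hc
    | b0 => exact absurd rfl hne

/-- rules with the same target push distinct symbols on the same stack -/
theorem Rl.img_sep {M : Mach S} {p p' q : St S} {o o' : Op (Sym S)} (h : Rl M p o q)
    (h' : Rl M p' o' q) (hne : (p, o) ≠ (p', o')) : o.PushSep o' := by
  cases h with
  | fin s hs => cases h' with
    | fin s' hs' =>
      refine ⟨false, _, _, ?_, rfl, rfl⟩
      intro h1
      injection h1 with h2
      subst h2
      exact hne rfl
  | go s hs => cases h' with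
    | go => exact absurd rfl hne
    | m1 _ c hc =>
      refine ⟨false, _, _, ?_, rfl, rfl⟩
      rintro rfl
      cases hc
  | w1 s c hc => cases h' with
    | w1 => exact absurd rfl hne
  | m1 s c hc hk => cases h' with
    | go =>
      refine ⟨false, _, _, ?_, rfl, rfl⟩
      rintro rfl
      cases hc
    | m1 _ c' hc' =>
      refine ⟨false, c, c', ?_, rfl, rfl⟩
      rintro rfl
      exact hne rfl
  | a1 s c γ j h1 h2 => cases h' with
    | a1 _ c' _ _ h3 _ =>
      subst h1 h3
      exact absurd rfl hne
    | d _ _ i _ γ' h3 h4 =>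
      rw [h2] at h4
      simp at h4
  | a2 s c h1 => cases h' with
    | a2 _ _ h2 =>
      subst h1 h2
      exact absurd rfl hne
  | x s j h1 => cases h' with
    | x => exact absurd rfl hne
    | d _ _ i _ γ' h3 h4 =>
      rw [h1] at h4
      simp at h4
  | d s o i j γ h1 h2 => cases h' with
    | a1 _ _ _ _ _ h4 =>
      rw [h4] at h2
      simp at h2
    | x _ _ h4 =>
      rw [h4] at h2
      simp at h2
    | d _ _ i' _ γ' h3 h4 =>
      have h7 : i = i' := Fin.ext (by omega)
      subst h7
      have h8 : γ = γ' := by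
        rw [h2] at h4
        injection h4
      subst h8
      exact absurd rfl hne
  | d0 s o => cases h' with
    | d0 => exact absurd rfl hne
    | m2 _ _ c hc hk =>
      exact ⟨false, _, _, hk.symm, rfl, rfl⟩
  | w2 s o c hc hk => cases h' with
    | w2 => exact absurd rfl hne
  | m2 s o c hc hk => cases h' with
    | d0 => exact ⟨false, _, _, hk, rfl, rfl⟩
    | m2 _ _ c' hc' hk' =>
      refine ⟨false, c, c', ?_, rfl, rfl⟩
      rintro rfl
      exact hne rfl
  | w2e s o => cases h' with
    | w2e => exact absurd rfl hne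
  | q s o s' h1 => cases h' with
    | q s2 o2 _ h2 =>
      refine ⟨true, _, _, ?_, rfl, rfl⟩
      intro h3
      injection h3 with h4 h5
      subst h4 h5
      exact hne rfl
  | f s => cases h' with
    | f => exact absurd rfl hne
    | m3 _ c hc =>
      refine ⟨true, _, _, ?_, rfl, rfl⟩
      rintro rfl
      cases hc
  | b s c hc => cases h' with
    | b => exact absurd rfl hne
  | m3 s c hc => cases h' with
    | f =>
      refine ⟨true, _, _, ?_, rfl, rfl⟩
      rintro rfl
      cases hc
    | m3 _ c' hc' =>
      refine ⟨true, c, c', ?_, rfl, rfl⟩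
      rintro rfl
      exact hne rfl
  | b0 s => cases h' with
    | b0 => exact absurd rfl hne

end Vale.Agent.P113.H907
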