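import Vale.Agent.P113.H907.Run

/-!
# P113: a universal reversible program with two stacks
-/

namespace Vale.Agent.P113.H907

open Turing.PartrecToTM2 (Γ' K' trNat trList)
open Relation

/-! ### finite and infinite runs -/

theorem exists_run {α : Type*} (r : α → α → Prop) {a b : α} (h : ReflTransGen r a b) :
    ∃ (N : ℕ) (c : ℕ → α), c 0 = a ∧ (∀ n < N, r (c n) (c (n + 1))) ∧ c N = b := by
  induction h using ReflTransGen.head_induction_on with
  | refl => exact ⟨0, fun _ => b, rfl, by simp, rfl⟩
  | @head a' c' hac _ ih =>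
    obtain ⟨N, c, h0, h1, h2⟩ := ih
    refine ⟨N + 1, fun n => Nat.casesOn n a' c, rfl, ?_, h2⟩
    intro n hn
    cases n with
    | zero =>
      change r a' (c 0)
      rw [h0]
      exact hac
    | succ n => exact h1 n (by omega)

theorem exists_infinite_run {α : Type*} (r : α → α → Prop) (I : Set α)
    (hI : ∀ c ∈ I, ∃ d ∈ I, TransGen r c d) {a : α} (ha : a ∈ I) :
    ∃ c : ℕ → α, c 0 = a ∧ ∀ n, r (c n) (c (n + 1)) := by
  have hJ : ∀ x : {x : α // ∃ d ∈ I, ReflTransGen r x d},
      ∃ y : {x : α // ∃ d ∈ I, ReflTransGen r x d}, r x.1 y.1 := by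
    rintro ⟨x, d, hd, hxd⟩
    rcases ReflTransGen.cases_head hxd with rfl | ⟨y, hxy, hyd⟩
    · obtain ⟨e, he, hxe⟩ := hI x hd
      obtain ⟨y, hxy, hye⟩ := TransGen.head'_iff.1 hxe
      exact ⟨⟨y, e, he, hye⟩, hxy⟩
    · exact ⟨⟨y, d, hd, hyd⟩, hxy⟩
  choose f hf using hJ
  let c : ℕ → {x : α // ∃ d ∈ I, ReflTransGen r x d} := fun n => f^[n] ⟨a, a, ha, .refl⟩
  refine ⟨fun n => (c n).1, rfl, fun n => ?_⟩
  have h1 : c (n + 1) = f (c n) := Function.iterate_succ_apply' f n _
  change r (c n).1 (c (n + 1)).1
  rw [h1]
  exact hf (c n)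

/-! ### from elementary machines -/

variable {S : Type}

/-- total data of an elementary machine -/
def EM.mach (E : EM S) : Mach S where
  hal s := E.δ s = none
  kk s := ((E.δ s).map Prod.fst).getD .main
  nn s o := ((E.δ s).map fun d => d.2 o).getD (s, [])
  len := by
    intro s o
    rcases h : E.δ s with _ | ⟨k, nx⟩
    · simp
    · have := E.len s k nx h o
      have h2 : o.toList.length ≤ 1 := by cases o <;> simp
      simp only [Option.map_some, Option.getD_some]
      omega

theorem EM.bigStep (E : EM S) {s s' : S} {T T' : Stacks} (h : E.step (s, T) = some (s', T'))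
    (hist : List (Sym S)) : ∃ hist', TransGen (Stp E.mach) (cf (.G s) [] (word T ++ .en :: hist))
      (cf (.G s') [] (word T' ++ .en :: hist')) := by
  obtain ⟨⟨k, nx⟩, hd, he⟩ := Option.map_eq_some_iff.1 h
  simp only at hd he
  have h1 : (nx (T k).head?).1 = s' := congrArg Prod.fst he
  have h2 : Function.update T k ((nx (T k).head?).2 ++ (T k).tail) = T' := congrArg Prod.snd he
  have hk : E.mach.kk s = k := by simp [EM.mach, hd]
  have hn : ∀ o, E.mach.nn s o = nx o := by intro o; simp [EM.mach, hd]
  have hh : ¬ E.mach.hal s := by simp [EM.mach, hd]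
  have := macro_step E.mach s hh T hist
  rw [hk] at this
  rw [hn, h1, h2] at this
  exact ⟨_, this⟩

/-- if the machine halts then the program reaches its halting state -/
theorem EM.prog_halts (E : EM S) : ∀ (t : ℕ) (s : S) (T : Stacks) (hist : List (Sym S)) (s' : S)
    (T' : Stacks), E.iter t (s, T) = some (s', T') → E.δ s' = none →
    ∃ d : Cfg (St S) (Sym S), d.st = .H ∧
      ReflTransGen (Stp E.mach) (cf (.G s) [] (word T ++ .en :: hist)) d := by
  intro t
  induction t with
  | zero =>
    intro s T hist s' T' h hs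
    have h1 : (s, T) = (s', T') := by simpa [EM.iter] using h
    have h2 : s = s' := congrArg Prod.fst h1
    subst h2
    exact ⟨_, rfl, .single (Stp.pushL (Rl.fin s hs) _ _)⟩
  | succ t ih =>
    intro s T hist s' T' h hs
    simp only [EM.iter, Option.bind_eq_some_iff] at h
    obtain ⟨⟨s1, T1⟩, h1, h2⟩ := h
    obtain ⟨hist', h3⟩ := E.bigStep h1 hist
    obtain ⟨d, hd, h4⟩ := ih s1 T1 hist' s' T' h2 hs
    exact ⟨d, hd, h3.to_reflTransGen.trans h4⟩

/-- if the machine does not halt then the program runs for ever -/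
theorem EM.prog_runs (E : EM S) (s : S) (T : Stacks)
    (h : ∀ t s' T', E.iter t (s, T) = some (s', T') → E.δ s' ≠ none) (hist : List (Sym S)) :
    ∃ c : ℕ → Cfg (St S) (Sym S), c 0 = cf (.G s) [] (word T ++ .en :: hist) ∧
      ∀ n, Stp E.mach (c n) (c (n + 1)) := by
  let I : Set (Cfg (St S) (Sym S)) := {c | ∃ t s' T' hist', E.iter t (s, T) = some (s', T') ∧
    c = cf (.G s') [] (word T' ++ .en :: hist')}
  refine exists_infinite_run (Stp E.mach) I ?_ ⟨0, s, T, hist, rfl, rfl⟩
  rintro c ⟨t, s', T', hist', h1, rfl⟩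
  have h2 := h t s' T' h1
  obtain ⟨⟨s2, T2⟩, h3⟩ : ∃ c, E.step (s', T') = some c := by
    rw [← Option.ne_none_iff_exists']
    rwa [ne_eq, EM.step_eq_none]
  obtain ⟨hist2, h4⟩ := E.bigStep h3 hist'
  refine ⟨_, ⟨t + 1, s2, T2, hist2, ?_, rfl⟩, h4⟩
  have iter_succ : ∀ (t : ℕ) (c d e : S × Stacks), E.iter t c = some d → E.step d = some e →
      E.iter (t + 1) c = some e := by
    intro t
    induction t with
    | zero =>
      intro c d e hc hd
      have : c = d := by simpa [EM.iter] using hc
      subst this
      simp [EM.iter, hd]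
    | succ t ih =>
      intro c d e hc hd
      rw [EM.iter, Option.bind_eq_some_iff] at hc
      obtain ⟨b, hb, hbd⟩ := hc
      rw [EM.iter, hb]
      exact ih b d e hbd hd
  exact iter_succ t _ _ _ h1 h3

/-! ### finiteness -/

instance : Finite K' := by
  refine Finite.of_injective (β := Fin 4) (fun k => K'.casesOn k 0 1 2 3) ?_
  intro x y h
  cases x <;> cases y <;> first | rfl | exact absurd h (by decide)

/-- injective code of symbols -/
def Sym.toProd : Sym S → Fin 6 × Γ' × K' × Option S × Option Γ'
  | .g γ => (0, γ, .main, none, none)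
  | .mk k => (1, default, k, none, none)
  | .en => (2, default, .main, none, none)
  | .bot => (3, default, .main, none, none)
  | .hi s o => (4, default, .main, some s, o)
  | .fin s => (5, default, .main, some s, none)

instance [Finite S] : Finite (Sym S) := by
  refine Finite.of_injective (Sym.toProd (S := S)) ?_
  intro x y h
  cases x <;> cases y <;> simp_all [Sym.toProd]

/-- injective code of control states -/
def St.toProd : St S → Fin 12 × Option S × Option (Sym S) × Option Γ' × Fin 3
  | .H => (0, none, none, none, 0)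
  | .G s => (1, some s, none, none, 0)
  | .W1 s => (2, some s, none, none, 0)
  | .M1 s c => (3, some s, some c, none, 0)
  | .X s => (4, some s, none, none, 0)
  | .D s o j => (5, some s, none, o, j)
  | .W2 s o => (6, some s, none, o, 0)
  | .M2 s o c => (7, some s, some c, o, 0)
  | .Q s o => (8, some s, none, o, 0)
  | .F s => (9, some s, none, none, 0)
  | .B s => (10, some s, none, none, 0)
  | .M3 s c => (11, some s, some c, none, 0)

instance [Finite S] : Finite (St S) := by
  refine Finite.of_injective (St.toProd (S := S)) ?_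
  intro x y h
  cases x <;> cases y <;> simp_all [St.toProd]

instance {A : Type} [Finite A] : Finite (Op A) := by
  refine Finite.of_injective (β := Bool × Bool × A)
    (fun o => match o with | .push s a => (true, s, a) | .pop s a => (false, s, a)) ?_
  intro x y h
  cases x <;> cases y <;> simp_all

instance {Q A : Type} [Finite Q] [Finite A] : Finite (Rule Q A) := by
  refine Finite.of_injective (β := Q × Q × Op A) (fun r => (r.src, r.dst, r.op)) ?_
  rintro ⟨a, b, c⟩ ⟨a', b', c'⟩ h
  simp_all

/-! ### transfer -/

/-- renaming the symbol of an operation -/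
def Op.map {A B : Type} (e : A → B) : Op A → Op B
  | .push s a => .push s (e a)
  | .pop s a => .pop s (e a)

/-- renaming states and symbols -/
def Cfg.map {Q Q' A B : Type} (u : Q → Q') (e : A → B) (c : Cfg Q A) : Cfg Q' B :=
  ⟨u c.st, fun s => (c.stk s).map e⟩

theorem Op.Acts.map {A B : Type} (e : A → B) {o : Op A} {T T' : Bool → List A}
    (h : o.Acts T T') : (o.map e).Acts (fun s => (T s).map e) (fun s => (T' s).map e) := by
  cases h with
  | push s a =>
    have h1 := Op.Acts.push s (e a) (fun s => (T s).map e)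
    have h2 : (fun s' => (Function.update T s (a :: T s) s').map e) =
        Function.update (fun s => (T s).map e) s (e a :: (T s).map e) := by
      funext s'
      by_cases h : s' = s
      · subst h; simp
      · simp [h]
    rw [h2]
    exact h1
  | pop s a =>
    have h1 := Op.Acts.pop s (e a) (fun s => (T' s).map e)
    have h2 : (fun s' => (Function.update T' s (a :: T' s) s').map e) =
        Function.update (fun s => (T' s).map e) s (e a :: (T' s).map e) := by
      funext s'
      by_cases h : s' = s
      · subst h; simp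
      · simp [h]
    rw [h2]
    exact h1

theorem Op.map_symm_map {A B : Type} (e : A ≃ B) (o : Op A) : (o.map e).map e.symm = o := by
  cases o <;> simp [Op.map]

theorem Op.PopSep.of_map {A B : Type} (e : A ≃ B) {o o' : Op B}
    (h : (o.map e.symm).PopSep (o'.map e.symm)) : o.PopSep o' := by
  obtain ⟨s, a, a', hne, h1, h2⟩ := h
  refine ⟨s, e a, e a', fun h => hne (e.injective h), ?_, ?_⟩
  · cases o <;> simp only [Op.map, Op.pop.injEq, reduceCtorEq] at h1
    obtain ⟨rfl, rfl⟩ := h1
    simp
  · cases o' <;> simp only [Op.map, Op.pop.injEq, reduceCtorEq] at h2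
    obtain ⟨rfl, rfl⟩ := h2
    simp

theorem Op.PushSep.of_map {A B : Type} (e : A ≃ B) {o o' : Op B}
    (h : (o.map e.symm).PushSep (o'.map e.symm)) : o.PushSep o' := by
  obtain ⟨s, a, a', hne, h1, h2⟩ := h
  refine ⟨s, e a, e a', fun h => hne (e.injective h), ?_, ?_⟩
  · cases o <;> simp only [Op.map, Op.push.injEq, reduceCtorEq] at h1
    obtain ⟨rfl, rfl⟩ := h1
    simp
  · cases o' <;> simp only [Op.map, Op.push.injEq, reduceCtorEq] at h2
    obtain ⟨rfl, rfl⟩ := h2
    simp

theorem Op.map_injective {A B : Type} {e : A → B} (he : Function.Injective e) :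
    Function.Injective (Op.map e) := by
  intro x y h
  cases x <;> cases y <;> simp_all [Op.map, he.eq_iff]

/-- the program with numbered states and symbols -/
noncomputable def prog [Finite S] (M : Mach S) {m k : ℕ} (u : St S ≃ Fin m) (e : Sym S ≃ Fin k)
    (s₀ : S) : RevProg m k where
  rules := (Set.toFinite {r : Rule (Fin m) (Fin k) |
    Rl M (u.symm r.src) (r.op.map e.symm) (u.symm r.dst)}).toFinset
  start := u (.G s₀)
  hlt := u .H
  dom_sep := by
    intro r hr r' hr' hne hs
    simp only [Set.Finite.mem_toFinset, Set.mem_ofPred_eq] at hr hr'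
    rw [hs] at hr
    refine Op.PopSep.of_map e (hr.dom_sep hr' ?_)
    intro h
    apply hne
    have h1 : r.op = r'.op := Op.map_injective e.symm.injective (congrArg Prod.fst h)
    have h2 : r.dst = r'.dst := u.symm.injective (congrArg Prod.snd h)
    cases r; cases r'
    simp_all
  img_sep := by
    intro r hr r' hr' hne hs
    simp only [Set.Finite.mem_toFinset, Set.mem_ofPred_eq] at hr hr'
    rw [hs] at hr
    refine Op.PushSep.of_map e (hr.img_sep hr' ?_)
    intro h
    apply hne
    have h1 : r.op = r'.op := Op.map_injective e.symm.injective (congrArg Prod.snd h)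
    have h2 : r.src = r'.src := u.symm.injective (congrArg Prod.fst h)
    cases r; cases r'
    simp_all
  hlt_src := by
    intro r hr h
    simp only [Set.Finite.mem_toFinset, Set.mem_ofPred_eq, h, Equiv.symm_apply_apply] at hr
    exact Rl.src_ne hr

theorem prog_step [Finite S] (M : Mach S) {m k : ℕ} (u : St S ≃ Fin m) (e : Sym S ≃ Fin k)
    (s₀ : S) {c d : Cfg (St S) (Sym S)} (h : Stp M c d) :
    (prog M u e s₀).Step (c.map u e) (d.map u e) := by
  obtain ⟨o, h1, h2⟩ := h
  refine ⟨⟨u c.st, u d.st, o.map e⟩, ?_, rfl, rfl, h2.map e⟩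
  simp only [prog, Set.Finite.mem_toFinset, Set.mem_ofPred_eq, Equiv.symm_apply_apply,
    Op.map_symm_map]
  exact h1

theorem cf_map {Q Q' A B : Type} (u : Q → Q') (e : A → B) (p : Q) (R : List A) :
    (cf p [] R).map u e = Cfg.start (u p) (R.map e) := by
  unfold cf Cfg.map Cfg.start
  congr 1
  funext s
  cases s <;> rfl

end Vale.Agent.P113.H907
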